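import Mathlib

/-!
# P262, tilt step, Lemma L (one dimensional comparison, exact constant)

For a log-`K`-Lipschitz weight `h`, `0 ≤ ρ < 1` and `s ≥ K (1 - ρ)` and every interval `I`:
`∫_{(I + [-s,s])ᶜ} h dγ ≤ ∫_{Iᶜ} P_ρ h dγ`, `P_ρ` the Mehler operator.
-/

open MeasureTheory ProbabilityTheory Set ENNReal

namespace Vale.Agent.P262.H889T

/-- the standard Gaussian measure on the line -/
noncomputable abbrev g1 : Measure ℝ := gaussianReal 0 1

/-- Mehler operator on the line -/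
noncomputable def mehler (ρ : ℝ) (h : ℝ → ℝ≥0∞) (x : ℝ) : ℝ≥0∞ :=
  ∫⁻ g, h (ρ * x + Real.sqrt (1 - ρ ^ 2) * g) ∂g1

/-- log-`K`-Lipschitz functions -/
def LogLip (K : ℝ) (h : ℝ → ℝ≥0∞) : Prop :=
  ∀ x y, h x ≤ ENNReal.ofReal (Real.exp (K * |x - y|)) * h y

lemma measurable_mehler {ρ : ℝ} {h : ℝ → ℝ≥0∞} (hh : Measurable h) :
    Measurable (mehler ρ h) := by
  unfold mehler
  apply Measurable.lintegral_prod_right' (f := fun p : ℝ × ℝ =>
    h (ρ * p.1 + Real.sqrt (1 - ρ ^ 2) * p.2))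
  fun_prop

lemma mehler_one {h : ℝ → ℝ≥0∞} : mehler 1 h = h := by
  ext x; simp [mehler]

lemma map_affine (a c : ℝ) :
    g1.map (fun g => a + c * g) = gaussianReal a (c ^ 2).toNNReal := by
  have h1 : (fun g : ℝ => a + c * g) = (fun y => a + y) ∘ (fun g => c * g) := rfl
  rw [h1, ← Measure.map_map (by fun_prop) (by fun_prop), gaussianReal_map_const_mul,
    gaussianReal_map_const_add]
  congr 1
  · simp
  · ext
    rw [mul_one, Real.coe_toNNReal _ (sq_nonneg c)]
    rfl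

lemma mehler_eq {ρ : ℝ} (hρ : ρ ^ 2 ≤ 1) {h : ℝ → ℝ≥0∞} (hh : Measurable h) (x : ℝ) :
    mehler ρ h x = ∫⁻ y, h y ∂(gaussianReal (ρ * x) (1 - ρ ^ 2).toNNReal) := by
  have e : (1 - ρ ^ 2) = Real.sqrt (1 - ρ ^ 2) ^ 2 := by
    rw [Real.sq_sqrt (show 0 ≤ 1 - ρ ^ 2 by linarith)]
  rw [e, ← map_affine, lintegral_map hh (by fun_prop)]
  rfl

/-- symmetry of the Mehler kernel -/
lemma kernel_symm {ρ : ℝ} (hρ : ρ ^ 2 < 1) (x y : ℝ) :
    gaussianPDF 0 1 x * gaussianPDF (ρ * x) (1 - ρ ^ 2).toNNReal y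
      = gaussianPDF 0 1 y * gaussianPDF (ρ * y) (1 - ρ ^ 2).toNNReal x := by
  have h1 : 0 < 1 - ρ ^ 2 := by linarith
  simp only [gaussianPDF]
  rw [← ENNReal.ofReal_mul (gaussianPDFReal_nonneg _ _ _),
    ← ENNReal.ofReal_mul (gaussianPDFReal_nonneg _ _ _)]
  congr 1
  simp only [gaussianPDFReal, Real.coe_toNNReal _ h1.le, NNReal.coe_one]
  have : ∀ a b c d : ℝ, a * Real.exp b * (c * Real.exp d) = a * c * Real.exp (b + d) := by
    intro a b c d; rw [Real.exp_add]; ring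
  rw [this, this]
  congr 2
  field_simp
  ring

/-- reversibility of the Mehler operator -/
lemma mehler_symm {ρ : ℝ} (hρ : ρ ^ 2 < 1) {f h : ℝ → ℝ≥0∞} (hf : Measurable f)
    (hh : Measurable h) :
    ∫⁻ x, f x * mehler ρ h x ∂g1 = ∫⁻ x, mehler ρ f x * h x ∂g1 := by
  have hv : (1 - ρ ^ 2).toNNReal ≠ 0 := by
    rw [Ne, Real.toNNReal_eq_zero]; linarith
  have hv1 : (1 : NNReal) ≠ 0 := one_ne_zero
  have e1 : ∀ φ ψ : ℝ → ℝ≥0∞, Measurable φ → Measurable ψ →
      ∫⁻ x, φ x * mehler ρ ψ x ∂g1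
        = ∫⁻ x, ∫⁻ y, gaussianPDF 0 1 x *
          gaussianPDF (ρ * x) (1 - ρ ^ 2).toNNReal y * (φ x * ψ y) := by
    intro φ ψ hφ hψ
    rw [show g1 = volume.withDensity (gaussianPDF 0 1) from gaussianReal_of_var_ne_zero 0 hv1]
    rw [lintegral_withDensity_eq_lintegral_mul (g := fun x => φ x * mehler ρ ψ x) _
      (measurable_gaussianPDF 0 1) (hφ.mul (measurable_mehler hψ))]
    apply lintegral_congr
    intro x
    simp only [Pi.mul_apply]
    rw [mehler_eq hρ.le hψ, gaussianReal_of_var_ne_zero _ hv,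
      lintegral_withDensity_eq_lintegral_mul _ (measurable_gaussianPDF _ _) hψ]
    rw [← mul_assoc, ← lintegral_const_mul _ (by fun_prop)]
    apply lintegral_congr
    intro y
    simp only [Pi.mul_apply]
    ring
  rw [e1 f h hf hh]
  have e2 : ∫⁻ x, mehler ρ f x * h x ∂g1 = ∫⁻ x, h x * mehler ρ f x ∂g1 := by
    apply lintegral_congr; intro x; ring
  rw [e2, e1 h f hh hf, lintegral_lintegral_swap]
  · apply lintegral_congr; intro y
    apply lintegral_congr; intro x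
    rw [kernel_symm hρ]
    ring
  · apply Measurable.aemeasurable
    have : Measurable fun p : ℝ × ℝ => gaussianPDF (ρ * p.1) (1 - ρ ^ 2).toNNReal p.2 := by
      simp only [gaussianPDF, gaussianPDFReal]
      fun_prop
    have h3 : Measurable fun p : ℝ × ℝ => gaussianPDF 0 1 p.1 :=
      (measurable_gaussianPDF 0 1).comp measurable_fst
    exact (h3.mul this).mul ((hf.comp measurable_fst).mul (hh.comp measurable_snd))

lemma exp_mul_pdf (a x : ℝ) :
    gaussianPDF 0 1 x * ENNReal.ofReal (Real.exp (a * x))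
      = ENNReal.ofReal (Real.exp (a ^ 2 / 2)) * gaussianPDF a 1 x := by
  simp only [gaussianPDF]
  rw [← ENNReal.ofReal_mul (gaussianPDFReal_nonneg _ _ _),
    ← ENNReal.ofReal_mul (Real.exp_pos _).le]
  congr 1
  simp only [gaussianPDFReal, NNReal.coe_one]
  rw [mul_assoc, ← Real.exp_add, mul_left_comm, ← Real.exp_add]
  congr 2
  ring

/-- Cameron-Martin on the line -/
lemma setLIntegral_exp {U : Set ℝ} (hU : MeasurableSet U) (a : ℝ) :
    ∫⁻ x in U, ENNReal.ofReal (Real.exp (a * x)) ∂g1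
      = ENNReal.ofReal (Real.exp (a ^ 2 / 2)) * g1 {x | x + a ∈ U} := by
  have hv1 : (1 : NNReal) ≠ 0 := one_ne_zero
  have hm : Measurable fun x : ℝ => ENNReal.ofReal (Real.exp (a * x)) := by fun_prop
  have e1 : g1 {x | x + a ∈ U} = gaussianReal a 1 U := by
    have : gaussianReal a 1 = g1.map (fun x => x + a) := by
      rw [gaussianReal_map_add_const]; simp
    rw [this, Measure.map_apply (by fun_prop) hU]
    rfl
  rw [e1, gaussianReal_of_var_ne_zero a hv1, withDensity_apply _ hU]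
  rw [show g1 = volume.withDensity (gaussianPDF 0 1) from gaussianReal_of_var_ne_zero 0 hv1]
  rw [setLIntegral_withDensity_eq_setLIntegral_mul _ (measurable_gaussianPDF 0 1) hm hU]
  rw [← lintegral_const_mul _ (measurable_gaussianPDF a 1)]
  apply lintegral_congr
  intro x
  simp only [Pi.mul_apply]
  exact exp_mul_pdf a x

lemma lintegral_exp (a : ℝ) :
    ∫⁻ x, ENNReal.ofReal (Real.exp (a * x)) ∂g1 = ENNReal.ofReal (Real.exp (a ^ 2 / 2)) := by
  have := setLIntegral_exp MeasurableSet.univ a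
  simpa using this

lemma mehler_exp {ρ : ℝ} (hρ : ρ ^ 2 ≤ 1) (K x : ℝ) :
    mehler ρ (fun y => ENNReal.ofReal (Real.exp (K * y))) x
      = ENNReal.ofReal (Real.exp (K ^ 2 * (1 - ρ ^ 2) / 2))
        * ENNReal.ofReal (Real.exp (K * ρ * x)) := by
  unfold mehler
  have e : ∀ g : ℝ, ENNReal.ofReal (Real.exp (K * (ρ * x + Real.sqrt (1 - ρ ^ 2) * g)))
      = ENNReal.ofReal (Real.exp (K * ρ * x))
        * ENNReal.ofReal (Real.exp ((K * Real.sqrt (1 - ρ ^ 2)) * g)) := by
    intro g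
    rw [← ENNReal.ofReal_mul (Real.exp_pos _).le, ← Real.exp_add]
    congr 2; ring
  simp_rw [e]
  rw [lintegral_const_mul _ (by fun_prop), lintegral_exp, mul_comm]
  congr 3
  rw [mul_pow, Real.sq_sqrt (by linarith)]

lemma mehler_le_one {ρ : ℝ} {f : ℝ → ℝ≥0∞} (hf : ∀ x, f x ≤ 1) (x : ℝ) : mehler ρ f x ≤ 1 := by
  unfold mehler
  calc ∫⁻ g, f (ρ * x + Real.sqrt (1 - ρ ^ 2) * g) ∂g1 ≤ ∫⁻ _, 1 ∂g1 :=
        lintegral_mono fun g => hf _
    _ = 1 := by simp

/-- the exponential case -/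
lemma exp_case {ρ K s : ℝ} (hρ : ρ ^ 2 < 1) (hs : K * (1 - ρ) ≤ s) {U : Set ℝ}
    (hU : MeasurableSet U) (hup : ∀ x y, x ∈ U → x ≤ y → y ∈ U) :
    ∫⁻ y in {y | y - s ∈ U}, ENNReal.ofReal (Real.exp (K * y)) ∂g1
      ≤ ∫⁻ y, mehler ρ (U.indicator 1) y * ENNReal.ofReal (Real.exp (K * y)) ∂g1 := by
  have hV : MeasurableSet {y : ℝ | y - s ∈ U} := (measurable_id.sub_const s) hU
  have h1 : Measurable (U.indicator (1 : ℝ → ℝ≥0∞)) := measurable_one.indicator hU
  rw [setLIntegral_exp hV, ← mehler_symm hρ h1 (by fun_prop)]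
  have e1 : ∫⁻ x, U.indicator 1 x * mehler ρ (fun y => ENNReal.ofReal (Real.exp (K * y))) x ∂g1
      = ENNReal.ofReal (Real.exp (K ^ 2 * (1 - ρ ^ 2) / 2))
        * (ENNReal.ofReal (Real.exp ((K * ρ) ^ 2 / 2)) * g1 {x | x + K * ρ ∈ U}) := by
    rw [← setLIntegral_exp hU, ← lintegral_indicator hU, ← lintegral_const_mul _
      (Measurable.indicator (by fun_prop) hU)]
    apply lintegral_congr
    intro x
    rw [mehler_exp hρ.le]
    by_cases hx : x ∈ U <;> simp [hx]
  rw [e1, ← mul_assoc, ← ENNReal.ofReal_mul (Real.exp_pos _).le, ← Real.exp_add]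
  have e2 : K ^ 2 * (1 - ρ ^ 2) / 2 + (K * ρ) ^ 2 / 2 = K ^ 2 / 2 := by ring
  rw [e2]
  gcongr ENNReal.ofReal _ * g1 ?_
  intro x hx
  exact hup (x + K - s) (x + K * ρ) hx (by nlinarith)

/-- **Lemma L, one sided.** -/
theorem lemL_up {ρ K s : ℝ} (hρ0 : 0 ≤ ρ) (hρ : ρ < 1) (hs : K * (1 - ρ) ≤ s)
    {h : ℝ → ℝ≥0∞} (hh : Measurable h) (h1 : ∀ x, h x ≠ ∞) (hK : LogLip K h) {U : Set ℝ}
    (hU : MeasurableSet U) (hup : ∀ x y, x ∈ U → x ≤ y → y ∈ U) :
    ∫⁻ y in {y | y - s ∈ U}, h y ∂g1 ≤ ∫⁻ x in U, mehler ρ h x ∂g1 := by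
  have hρ2 : ρ ^ 2 < 1 := by nlinarith
  set V : Set ℝ := {y | y - s ∈ U} with hVdef
  have hV : MeasurableSet V := (measurable_id.sub_const s) hU
  set q : ℝ → ℝ≥0∞ := mehler ρ (U.indicator 1) with hq
  have hUm : Measurable (U.indicator (1 : ℝ → ℝ≥0∞)) := measurable_one.indicator hU
  have hqm : Measurable q := measurable_mehler hUm
  have hq1 : ∀ x, q x ≤ 1 := fun x => mehler_le_one (fun y => by
    by_cases hy : y ∈ U <;> simp [hy]) x
  have eR : ∫⁻ x in U, mehler ρ h x ∂g1 = ∫⁻ y, q y * h y ∂g1 := by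
    rw [hq, ← mehler_symm hρ2 hUm hh, ← lintegral_indicator hU]
    apply lintegral_congr
    intro x
    by_cases hx : x ∈ U <;> simp [hx]
  rw [eR]
  by_cases hne : V.Nonempty
  swap
  · rw [not_nonempty_iff_eq_empty] at hne
    rw [hne]; simp
  by_cases hall : V = univ
  · have hUu : U = univ := by
      ext x
      have : x + s ∈ V := by rw [hall]; trivial
      simpa [hVdef] using this
    have : q = 1 := by
      ext x; simp [hq, hUu, mehler]
    rw [this, hall]; simp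
  · obtain ⟨z, hz⟩ : ∃ z, z ∉ V := by
      by_contra hcon
      push Not at hcon
      exact hall (eq_univ_of_forall hcon)
    have hVup : ∀ x y, x ∈ V → x ≤ y → y ∈ V := fun x y hx hxy => hup _ _ hx (by linarith)
    have hbdd : BddBelow V := ⟨z, fun y hy => by
      by_contra hcon
      exact hz (hVup y z hy (by linarith [not_le.mp hcon]))⟩
    set b := sInf V with hb
    have hge : ∀ y ∈ V, b ≤ y := fun y hy => csInf_le hbdd hy
    have hle : ∀ y, y ∉ V → y ≤ b := fun y hy => by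
      apply le_csInf hne
      intro w hw
      by_contra hcon
      exact hy (hVup w y hw (by linarith [not_le.mp hcon]))
    set e : ℝ → ℝ≥0∞ := fun y => ENNReal.ofReal (Real.exp (K * y)) with he
    set c : ℝ≥0∞ := ENNReal.ofReal (Real.exp (-(K * b))) * h b with hc
    have hem : Measurable e := by fun_prop
    have ec : ∀ y, c * e y = ENNReal.ofReal (Real.exp (K * (y - b))) * h b := by
      intro y
      rw [hc, he, mul_right_comm, ← ENNReal.ofReal_mul (Real.exp_pos _).le, ← Real.exp_add]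
      congr 3; ring
    have hup1 : ∀ y ∈ V, h y ≤ c * e y := by
      intro y hy
      rw [ec]
      have := hK y b
      rwa [abs_of_nonneg (by linarith [hge y hy])] at this
    have hlo1 : ∀ y, y ∉ V → c * e y ≤ h y := by
      intro y hy
      rw [ec]
      have h2 := hK b y
      rw [abs_of_nonneg (by linarith [hle y hy])] at h2
      calc ENNReal.ofReal (Real.exp (K * (y - b))) * h b
          ≤ ENNReal.ofReal (Real.exp (K * (y - b)))
            * (ENNReal.ofReal (Real.exp (K * (b - y))) * h y) := by gcongr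
        _ = h y := by
            rw [← mul_assoc, ← ENNReal.ofReal_mul (Real.exp_pos _).le, ← Real.exp_add]
            have : K * (y - b) + K * (b - y) = 0 := by ring
            rw [this]; simp
    -- the key inequality for the exponential
    have key := exp_case (K := K) hρ2 hs hU hup
    have hfin : ∫⁻ y in V, e y * q y ∂g1 ≠ ∞ := by
      apply ne_top_of_le_ne_top (b := ∫⁻ y, e y ∂g1)
      · rw [he, lintegral_exp]; exact ENNReal.ofReal_ne_top
      · calc ∫⁻ y in V, e y * q y ∂g1 ≤ ∫⁻ y, e y * q y ∂g1 := setLIntegral_le_lintegral _ _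
          _ ≤ ∫⁻ y, e y ∂g1 := lintegral_mono fun y => by
              calc e y * q y ≤ e y * 1 := by gcongr; exact hq1 y
                _ = e y := mul_one _
    have key2 : ∫⁻ y in V, e y * (1 - q y) ∂g1 ≤ ∫⁻ y in Vᶜ, e y * q y ∂g1 := by
      have a1 : ∫⁻ y in V, e y * q y ∂g1 + ∫⁻ y in V, e y * (1 - q y) ∂g1
          = ∫⁻ y in V, e y ∂g1 := by
        rw [← lintegral_add_left (f := fun y => e y * q y) (hem.mul hqm)]
        apply lintegral_congr
        intro y
        rw [← mul_add, add_tsub_cancel_of_le (hq1 y), mul_one]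
      have a2 : ∫⁻ y, q y * e y ∂g1
          = ∫⁻ y in V, e y * q y ∂g1 + ∫⁻ y in Vᶜ, e y * q y ∂g1 := by
        rw [lintegral_add_compl _ hV]
        apply lintegral_congr; intro y; ring
      have a3 : ∫⁻ y in V, e y * q y ∂g1 + ∫⁻ y in V, e y * (1 - q y) ∂g1
          ≤ ∫⁻ y in V, e y * q y ∂g1 + ∫⁻ y in Vᶜ, e y * q y ∂g1 := by
        rw [a1, ← a2]; exact key
      exact (ENNReal.add_le_add_iff_left hfin).mp a3
    have b1 : ∫⁻ y in V, h y * (1 - q y) ∂g1 ≤ c * ∫⁻ y in V, e y * (1 - q y) ∂g1 := by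
      rw [← lintegral_const_mul (f := fun y => e y * (1 - q y)) _
        (hem.mul (measurable_const.sub hqm))]
      apply setLIntegral_mono' hV
      intro y hy
      rw [← mul_assoc]
      gcongr
      exact hup1 y hy
    have b2 : c * ∫⁻ y in Vᶜ, e y * q y ∂g1 ≤ ∫⁻ y in Vᶜ, h y * q y ∂g1 := by
      rw [← lintegral_const_mul (f := fun y => e y * q y) _ (hem.mul hqm)]
      apply setLIntegral_mono' hV.compl
      intro y hy
      rw [← mul_assoc]
      gcongr
      exact hlo1 y hy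
    calc ∫⁻ y in V, h y ∂g1
        = ∫⁻ y in V, h y * q y ∂g1 + ∫⁻ y in V, h y * (1 - q y) ∂g1 := by
          rw [← lintegral_add_left (f := fun y => h y * q y) (hh.mul hqm)]
          apply lintegral_congr
          intro y
          rw [← mul_add, add_tsub_cancel_of_le (hq1 y), mul_one]
      _ ≤ ∫⁻ y in V, h y * q y ∂g1 + ∫⁻ y in Vᶜ, h y * q y ∂g1 :=
          add_le_add le_rfl (b1.trans ((mul_le_mul_right key2 c).trans b2))
      _ = ∫⁻ y, q y * h y ∂g1 := by
          rw [lintegral_add_compl _ hV]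
          apply lintegral_congr; intro y; ring

/-- **Lemma L, one sided, left end.** -/
theorem lemL_down {ρ K s : ℝ} (hρ0 : 0 ≤ ρ) (hρ : ρ < 1) (hs : K * (1 - ρ) ≤ s)
    {h : ℝ → ℝ≥0∞} (hh : Measurable h) (h1 : ∀ x, h x ≠ ∞) (hK : LogLip K h) {U : Set ℝ}
    (hU : MeasurableSet U) (hdn : ∀ x y, x ∈ U → y ≤ x → y ∈ U) :
    ∫⁻ y in {y | y + s ∈ U}, h y ∂g1 ≤ ∫⁻ x in U, mehler ρ h x ∂g1 := by
  have hneg : g1.map (fun x => -x) = g1 := by
    rw [gaussianReal_map_neg]; simp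
  have hmp : MeasurePreserving (fun x : ℝ => -x) g1 g1 := ⟨measurable_neg, hneg⟩
  have hme : MeasurableEmbedding (fun x : ℝ => -x) := (MeasurableEquiv.neg ℝ).measurableEmbedding
  have hK' : LogLip K (fun x => h (-x)) := by
    intro x y
    have := hK (-x) (-y)
    rwa [show |-x - -y| = |x - y| by rw [← abs_neg]; congr 1; ring] at this
  have main := lemL_up (s := s) hρ0 hρ hs (h := fun x => h (-x)) (hh.comp measurable_neg)
    (fun x => h1 _) hK' (U := {x | -x ∈ U}) (measurable_neg hU)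
    (fun x y hx hxy => hdn _ _ hx (neg_le_neg hxy))
  have e1 : ∫⁻ y in {y | y - s ∈ {x | -x ∈ U}}, h (-y) ∂g1 = ∫⁻ y in {y | y + s ∈ U}, h y ∂g1 := by
    rw [← hmp.setLIntegral_comp_preimage_emb hme h]
    congr 1
    congr 1
    ext y
    simp only [mem_setOf_eq, mem_preimage]
    rw [show -(y - s) = -y + s by ring]
  have e2 : ∫⁻ x in {x | -x ∈ U}, mehler ρ (fun x => h (-x)) x ∂g1
      = ∫⁻ x in U, mehler ρ h x ∂g1 := by
    rw [← hmp.setLIntegral_comp_preimage_emb hme (mehler ρ h)]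
    apply lintegral_congr
    intro x
    unfold mehler
    have : ∫⁻ g, h (ρ * -x + Real.sqrt (1 - ρ ^ 2) * g) ∂g1
        = ∫⁻ g, h (ρ * -x + Real.sqrt (1 - ρ ^ 2) * (-g)) ∂g1 :=
      (hmp.lintegral_comp_emb hme (fun g => h (ρ * -x + Real.sqrt (1 - ρ ^ 2) * g))).symm
    rw [this]
    apply lintegral_congr
    intro g
    congr 1; ring
  rw [e1, e2] at main
  exact main

/-- thickening of a set on the line -/
def thick (s : ℝ) (I : Set ℝ) : Set ℝ := {x | ∃ y ∈ I, |x - y| ≤ s}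

/-- **Lemma L.** -/
theorem lemL {ρ K s : ℝ} (hρ0 : 0 ≤ ρ) (hρ : ρ < 1) (hs : K * (1 - ρ) ≤ s) (hs0 : 0 ≤ s)
    {h : ℝ → ℝ≥0∞} (hh : Measurable h) (h1 : ∀ x, h x ≠ ∞) (hK : LogLip K h) {I : Set ℝ}
    (hI : OrdConnected I) :
    ∫⁻ y in (thick s I)ᶜ, h y ∂g1 ≤ ∫⁻ x in Iᶜ, mehler ρ h x ∂g1 := by
  by_cases hne : I.Nonempty
  swap
  · rw [not_nonempty_iff_eq_empty] at hne
    have hρ2 : ρ ^ 2 < 1 := by nlinarith
    have e1 : thick s (∅ : Set ℝ) = ∅ := by ext x; simp [thick]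
    rw [hne, e1]
    simp only [compl_empty, Measure.restrict_univ]
    have := mehler_symm hρ2 (f := 1) measurable_one hh
    simp only [Pi.one_apply, one_mul] at this
    rw [this]
    apply le_of_eq
    apply lintegral_congr
    intro x
    have : mehler ρ 1 x = 1 := by simp [mehler]
    rw [this, one_mul]
  obtain ⟨i0, hi0⟩ := hne
  set U : Set ℝ := {x | ∀ y ∈ I, y < x} with hUdef
  set D : Set ℝ := {x | ∀ y ∈ I, x < y} with hDdef
  have hUup : ∀ x y, x ∈ U → x ≤ y → y ∈ U := fun x y hx hxy z hz => (hx z hz).trans_le hxy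
  have hDdn : ∀ x y, x ∈ D → y ≤ x → y ∈ D := fun x y hx hxy z hz => hxy.trans_lt (hx z hz)
  have hUo : OrdConnected U := ⟨fun x hx y hy z hz => hUup x z hx hz.1⟩
  have hDo : OrdConnected D := ⟨fun x hx y hy z hz => hDdn y z hy hz.2⟩
  have hUm : MeasurableSet U := hUo.measurableSet
  have hDm : MeasurableSet D := hDo.measurableSet
  have hUDd : Disjoint U D := by
    rw [Set.disjoint_left]
    intro x hx hx'
    exact absurd (hx i0 hi0) (not_lt.mpr (hx' i0 hi0).le)
  have eI : Iᶜ = U ∪ D := by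
    ext x
    constructor
    · intro hx
      by_contra hcon
      rw [mem_union, not_or] at hcon
      obtain ⟨h2, h3⟩ := hcon
      simp only [hUdef, hDdef, mem_setOf_eq, not_forall, not_lt] at h2 h3
      obtain ⟨y, hy, hxy⟩ := h2
      obtain ⟨z, hz, hxz⟩ := h3
      exact hx (hI.out hz hy ⟨hxz, hxy⟩)
    · rintro (hx | hx) hxI
      · exact lt_irrefl _ (hx x hxI)
      · exact lt_irrefl _ (hx x hxI)
  have eT : (thick s I)ᶜ ⊆ {y | y - s ∈ U} ∪ {y | y + s ∈ D} := by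
    intro x hx
    have hx' : ∀ y ∈ I, s < |x - y| := by
      intro y hy
      by_contra hcon
      exact hx ⟨y, hy, not_lt.mp hcon⟩
    have hxI : x ∈ Iᶜ := by
      intro hxI
      have := hx' x hxI
      simp at this
      linarith
    rw [eI] at hxI
    rcases hxI with hx2 | hx2
    · left
      intro y hy
      have := hx' y hy
      rw [abs_of_pos (by linarith [hx2 y hy])] at this
      linarith
    · right
      intro y hy
      have := hx' y hy
      rw [abs_of_neg (by linarith [hx2 y hy])] at this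
      linarith
  calc ∫⁻ y in (thick s I)ᶜ, h y ∂g1 ≤ ∫⁻ y in {y | y - s ∈ U} ∪ {y | y + s ∈ D}, h y ∂g1 :=
        lintegral_mono_set eT
    _ ≤ ∫⁻ y in {y | y - s ∈ U}, h y ∂g1 + ∫⁻ y in {y | y + s ∈ D}, h y ∂g1 :=
        lintegral_union_le _ _ _
    _ ≤ ∫⁻ x in U, mehler ρ h x ∂g1 + ∫⁻ x in D, mehler ρ h x ∂g1 :=
        add_le_add (lemL_up hρ0 hρ hs hh h1 hK hUm hUup) (lemL_down hρ0 hρ hs hh h1 hK hDm hDdn)
    _ = ∫⁻ x in Iᶜ, mehler ρ h x ∂g1 := by
        rw [eI, lintegral_union hDm hUDd]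

end Vale.Agent.P262.H889T
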