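import Vale.Agent.P262.H889T.LemL

/-!
# P262, tilt step, Lemma T (the correlation path)

Payoffs `F σ s (e,m) = P_σ 1_{(I(e)+[-s,s])ᶜ}(m)`; value `V f = sup_i (c_i + ∫∫ W_i f)` over an
arbitrary family of policies.  If at every node of the path the value is the supremum over the
policies whose weight is log-Lipschitz in `m`, then the value at correlation `1` and extension
`s⋆` is at most the value at correlation `0` and extension `0`.
-/

open MeasureTheory ProbabilityTheory Set ENNReal Filter Topology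

namespace Vale.Agent.P262.H889T

lemma map_two (b c : ℝ) :
    (g1.prod g1).map (fun p : ℝ × ℝ => b * p.1 + c * p.2)
      = gaussianReal 0 (b ^ 2 + c ^ 2).toNNReal := by
  have h1 : (fun p : ℝ × ℝ => b * p.1 + c * p.2)
      = (fun p : ℝ × ℝ => p.1 + p.2) ∘ (Prod.map (fun x => b * x) (fun x => c * x)) := rfl
  have h2 : (g1.prod g1).map (Prod.map (fun x : ℝ => b * x) (fun x : ℝ => c * x))
      = (gaussianReal 0 (b ^ 2).toNNReal).prod (gaussianReal 0 (c ^ 2).toNNReal) := by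
    rw [← Measure.map_prod_map _ _ (by fun_prop) (by fun_prop)]
    have e : ∀ a : ℝ, g1.map (fun x => a * x) = gaussianReal 0 (a ^ 2).toNNReal := by
      intro a
      have := map_affine 0 a
      simpa using this
    rw [e, e]
  rw [h1, ← Measure.map_map (by fun_prop) (by fun_prop), h2]
  have h3 := gaussianReal_conv_gaussianReal (m₁ := 0) (m₂ := 0) (v₁ := (b ^ 2).toNNReal)
    (v₂ := (c ^ 2).toNNReal)
  rw [Measure.conv] at h3
  rw [h3, add_zero, Real.toNNReal_add (sq_nonneg _) (sq_nonneg _)]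

lemma lintegral_two {h : ℝ → ℝ≥0∞} (hh : Measurable h) (a b c : ℝ) :
    ∫⁻ g, ∫⁻ g', h (a + b * g + c * g') ∂g1 ∂g1
      = ∫⁻ g, h (a + Real.sqrt (b ^ 2 + c ^ 2) * g) ∂g1 := by
  have e1 : ∫⁻ g, ∫⁻ g', h (a + b * g + c * g') ∂g1 ∂g1
      = ∫⁻ p : ℝ × ℝ, h (a + (b * p.1 + c * p.2)) ∂(g1.prod g1) := by
    rw [lintegral_prod _ (by fun_prop)]
    apply lintegral_congr; intro g
    apply lintegral_congr; intro g'
    congr 1; ring
  rw [e1, ← lintegral_map (f := fun y => h (a + y)) (by fun_prop)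
    (g := fun p : ℝ × ℝ => b * p.1 + c * p.2) (by fun_prop), map_two]
  have e2 : gaussianReal 0 (b ^ 2 + c ^ 2).toNNReal
      = g1.map (fun g => 0 + Real.sqrt (b ^ 2 + c ^ 2) * g) := by
    rw [map_affine, Real.sq_sqrt (by positivity)]
  rw [e2, lintegral_map (by fun_prop) (by fun_prop)]
  simp

/-- semigroup law -/
lemma mehler_mehler {ρ σ : ℝ} (hρ : ρ ^ 2 ≤ 1) (hσ : σ ^ 2 ≤ 1) {h : ℝ → ℝ≥0∞}
    (hh : Measurable h) : mehler ρ (mehler σ h) = mehler (ρ * σ) h := by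
  ext x
  unfold mehler
  have e : ∀ g g' : ℝ, σ * (ρ * x + Real.sqrt (1 - ρ ^ 2) * g) + Real.sqrt (1 - σ ^ 2) * g'
      = (ρ * σ * x) + (σ * Real.sqrt (1 - ρ ^ 2)) * g + Real.sqrt (1 - σ ^ 2) * g' := by
    intro g g'; ring
  simp_rw [e]
  rw [lintegral_two hh]
  congr 1
  ext g
  congr 2
  rw [mul_pow, Real.sq_sqrt (by linarith), Real.sq_sqrt (by linarith)]
  ring_nf

lemma mehler_mono {ρ : ℝ} {f h : ℝ → ℝ≥0∞} (hfh : ∀ x, f x ≤ h x) (x : ℝ) :
    mehler ρ f x ≤ mehler ρ h x := lintegral_mono fun _ => hfh _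

lemma mehler_logLip {σ K : ℝ} (hσ : 0 ≤ σ) {h : ℝ → ℝ≥0∞} (hh : Measurable h)
    (hK : LogLip K h) : LogLip (σ * K) (mehler σ h) := by
  intro x y
  unfold mehler
  rw [← lintegral_const_mul _ (by fun_prop)]
  apply lintegral_mono
  intro g
  have := hK (σ * x + Real.sqrt (1 - σ ^ 2) * g) (σ * y + Real.sqrt (1 - σ ^ 2) * g)
  rwa [show (σ * x + Real.sqrt (1 - σ ^ 2) * g) - (σ * y + Real.sqrt (1 - σ ^ 2) * g)
    = σ * (x - y) by ring, abs_mul, abs_of_nonneg hσ,
    show K * (σ * |x - y|) = σ * K * |x - y| by ring] at this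

lemma thick_zero (I : Set ℝ) : thick 0 I = I := by
  ext x
  constructor
  · rintro ⟨y, hy, hxy⟩
    have : x = y := by
      have := abs_nonpos_iff.mp hxy
      linarith
    exact this ▸ hy
  · intro hx
    exact ⟨x, hx, by simp⟩

lemma thick_mono {s t : ℝ} (hst : s ≤ t) (I : Set ℝ) : thick s I ⊆ thick t I := by
  rintro x ⟨y, hy, hxy⟩
  exact ⟨y, hy, hxy.trans hst⟩

lemma thick_ordConnected {s : ℝ} {I : Set ℝ} (hI : OrdConnected I) :
    OrdConnected (thick s I) := by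
  refine ⟨?_⟩
  rintro x ⟨a, ha, hxa⟩ y ⟨b, hb, hyb⟩ z hz
  have ha' := abs_le.mp hxa
  have hb' := abs_le.mp hyb
  have hz1 := hz.1
  have hz2 := hz.2
  by_cases h1 : z - s ≤ b
  · by_cases h2 : a ≤ z + s
    · -- choose a point of [a,b] (or [b,a]) within distance s of z
      by_cases h3 : a ≤ z - s
      · refine ⟨z - s, hI.out ha hb ⟨h3, h1⟩, ?_⟩
        rw [show z - (z - s) = s by ring]
        have hs : 0 ≤ s := (abs_nonneg _).trans hxa
        rw [abs_of_nonneg hs]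
      · refine ⟨a, ha, abs_le.mpr ⟨by linarith, by linarith⟩⟩
    · exact absurd (show a ≤ z + s by linarith) h2
  · exact absurd (show z - s ≤ b by linarith) h1

lemma thick_add {s t : ℝ} (hs : 0 ≤ s) (ht : 0 ≤ t) (I : Set ℝ) :
    thick t (thick s I) = thick (s + t) I := by
  ext x
  constructor
  · rintro ⟨y, ⟨z, hz, hyz⟩, hxy⟩
    refine ⟨z, hz, ?_⟩
    calc |x - z| = |(x - y) + (y - z)| := by ring_nf
      _ ≤ |x - y| + |y - z| := abs_add_le _ _
      _ ≤ s + t := by linarith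
  · rintro ⟨z, hz, hxz⟩
    have h := abs_le.mp hxz
    by_cases h1 : |x - z| ≤ s
    · exact ⟨x, ⟨z, hz, h1⟩, by simpa using ht⟩
    · rcases le_total 0 (x - z) with h2 | h2
      · refine ⟨z + s, ⟨z, hz, by rw [add_sub_cancel_left, abs_of_nonneg hs]⟩, ?_⟩
        rw [abs_of_nonneg h2] at h1
        exact abs_le.mpr ⟨by linarith, by linarith [h.2]⟩
      · refine ⟨z - s, ⟨z, hz, by
          rw [show z - s - z = -s by ring, abs_neg, abs_of_nonneg hs]⟩, ?_⟩
        rw [abs_of_nonpos h2] at h1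
        exact abs_le.mpr ⟨by linarith [h.1], by linarith⟩

variable {E : Type*} [MeasurableSpace E]

/-- the payoff at correlation `σ` and extension `s` -/
noncomputable def pay (I : E → Set ℝ) (σ s : ℝ) (e : E) (m : ℝ) : ℝ≥0∞ :=
  mehler σ ((thick s (I e))ᶜ.indicator 1) m

/-- the value of a payoff for a family of policies `(c i, W i)` -/
noncomputable def val {ι : Type*} (π : Measure E) (c : ι → ℝ≥0∞) (W : ι → E → ℝ → ℝ≥0∞)
    (f : E → ℝ → ℝ≥0∞) : ℝ≥0∞ :=
  ⨆ i, c i + ∫⁻ e, ∫⁻ m, W i e m * f e m ∂g1 ∂π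

variable {ι : Type*} {π : Measure E}

/-- one step of the path -/
theorem path_step {c : ι → ℝ≥0∞} {W : ι → E → ℝ → ℝ≥0∞}
    (hW : ∀ i e, Measurable (W i e)) (hW1 : ∀ i e m, W i e m ≤ 1)
    {I : E → Set ℝ} (hI : ∀ e, OrdConnected (I e)) {σ σ' s s' K : ℝ} (h0 : 0 ≤ σ)
    (h1 : σ < σ') (h2 : σ' < 1) (hs : 0 ≤ s) (hss : s ≤ s') (hK : K * (σ' - σ) ≤ s' - s)
    (i : ι) (hi : ∀ e, LogLip K (W i e)) :
    c i + ∫⁻ e, ∫⁻ m, W i e m * pay I σ' s' e m ∂g1 ∂π
      ≤ val π c W (pay I σ s) := by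
  refine le_trans ?_ (le_iSup _ i)
  refine add_le_add le_rfl (lintegral_mono fun e => ?_)
  have hσ' : 0 < σ' := h0.trans_lt h1
  have hσ'2 : σ' ^ 2 < 1 := by nlinarith
  have hσ2 : σ ^ 2 < 1 := by nlinarith
  set ρ := σ / σ' with hρ
  have hρ0 : 0 ≤ ρ := by positivity
  have hρ1 : ρ < 1 := by rw [hρ, div_lt_one hσ']; exact h1
  have hρ2 : ρ ^ 2 ≤ 1 := by nlinarith
  have hρσ : ρ * σ' = σ := by rw [hρ]; field_simp
  have hTs : MeasurableSet (thick s (I e)) := (thick_ordConnected (hI e)).measurableSet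
  have hTs' : MeasurableSet (thick s' (I e)) := (thick_ordConnected (hI e)).measurableSet
  have hm : Measurable ((thick s (I e))ᶜ.indicator (1 : ℝ → ℝ≥0∞)) :=
    measurable_one.indicator hTs.compl
  have hm' : Measurable ((thick s' (I e))ᶜ.indicator (1 : ℝ → ℝ≥0∞)) :=
    measurable_one.indicator hTs'.compl
  have hWm := hW i e
  have hh : Measurable (mehler σ' (W i e)) := measurable_mehler hWm
  have hfin : ∀ x, mehler σ' (W i e) x ≠ ∞ := fun x =>
    ne_top_of_le_ne_top one_ne_top (mehler_le_one (hW1 i e) x)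
  have hlip := mehler_logLip hσ'.le hWm (hi e)
  have key := lemL (ρ := ρ) (K := σ' * K) (s := s' - s) hρ0 hρ1 (by
    have : σ' * K * (1 - ρ) = K * (σ' - ρ * σ') := by ring
    rw [this, hρσ]; exact hK) (by linarith) hh hfin hlip (I := thick s (I e))
    (thick_ordConnected (hI e))
  rw [thick_add hs (by linarith)] at key
  have e3 : s + (s' - s) = s' := by ring
  rw [e3] at key
  have eL : ∫⁻ m, W i e m * pay I σ' s' e m ∂g1
      = ∫⁻ y in (thick s' (I e))ᶜ, mehler σ' (W i e) y ∂g1 := by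
    unfold pay
    rw [mehler_symm hσ'2 hWm hm', ← lintegral_indicator hTs'.compl]
    apply lintegral_congr
    intro x
    by_cases hx : x ∈ (thick s' (I e))ᶜ
    · rw [indicator_of_mem hx, indicator_of_mem hx]; simp
    · rw [indicator_of_notMem hx, indicator_of_notMem hx]; simp
  have eR : ∫⁻ m, W i e m * pay I σ s e m ∂g1
      = ∫⁻ y in (thick s (I e))ᶜ, mehler ρ (mehler σ' (W i e)) y ∂g1 := by
    unfold pay
    rw [mehler_mehler hρ2 hσ'2.le hWm, hρσ, mehler_symm hσ2 hWm hm,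
      ← lintegral_indicator hTs.compl]
    apply lintegral_congr
    intro x
    by_cases hx : x ∈ (thick s (I e))ᶜ
    · rw [indicator_of_mem hx, indicator_of_mem hx]; simp
    · rw [indicator_of_notMem hx, indicator_of_notMem hx]; simp
  rw [eL, eR]
  exact key

/-- the value is the supremum over the policies with log-`K`-Lipschitz weight -/
def LipAttained (π : Measure E) (c : ι → ℝ≥0∞) (W : ι → E → ℝ → ℝ≥0∞) (K : ℝ)
    (f : E → ℝ → ℝ≥0∞) : Prop :=
  ∀ x < val π c W f, ∃ i, (∀ e, LogLip K (W i e)) ∧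
    x < c i + ∫⁻ e, ∫⁻ m, W i e m * f e m ∂g1 ∂π

theorem path_step' {c : ι → ℝ≥0∞} {W : ι → E → ℝ → ℝ≥0∞}
    (hW : ∀ i e, Measurable (W i e)) (hW1 : ∀ i e m, W i e m ≤ 1)
    {I : E → Set ℝ} (hI : ∀ e, OrdConnected (I e)) {σ σ' s s' K : ℝ} (h0 : 0 ≤ σ)
    (h1 : σ < σ') (h2 : σ' < 1) (hs : 0 ≤ s) (hss : s ≤ s') (hK : K * (σ' - σ) ≤ s' - s)
    (hatt : LipAttained π c W K (pay I σ' s')) :
    val π c W (pay I σ' s') ≤ val π c W (pay I σ s) := by
  by_contra hcon
  rw [not_le] at hcon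
  obtain ⟨i, hi, hlt⟩ := hatt _ hcon
  exact absurd hlt (not_lt.mpr (path_step hW hW1 hI h0 h1 h2 hs hss hK i hi))

end Vale.Agent.P262.H889T
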