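import Vale.Agent.P262.H889T.LemT

/-!
# P262, tilt step, Lemma T: the end of the path and the final statement
-/

open MeasureTheory ProbabilityTheory Set ENNReal Filter Topology

namespace Vale.Agent.P262.H889T

lemma mehler_tendsto {B : Set ℝ} (hB : MeasurableSet B) {σ : ℕ → ℝ}
    (hσ : Tendsto σ atTop (𝓝 1)) {m : ℝ} (hm : m ∉ frontier B) :
    Tendsto (fun n => mehler (σ n) (B.indicator 1) m) atTop (𝓝 (B.indicator 1 m)) := by
  have hind : Measurable (B.indicator (1 : ℝ → ℝ≥0∞)) := measurable_one.indicator hB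
  have hlim : ∀ g : ℝ, Tendsto (fun n => σ n * m + Real.sqrt (1 - σ n ^ 2) * g) atTop (𝓝 m) := by
    intro g
    have h1 : Tendsto (fun n => σ n * m + Real.sqrt (1 - σ n ^ 2) * g) atTop
        (𝓝 (1 * m + Real.sqrt (1 - 1 ^ 2) * g)) :=
      (hσ.mul_const m).add
        ((Real.continuous_sqrt.tendsto _ |>.comp ((hσ.pow 2).const_sub 1)).mul_const g)
    simpa using h1
  have e : B.indicator (1 : ℝ → ℝ≥0∞) m = ∫⁻ _ : ℝ, B.indicator 1 m ∂g1 := by simp
  rw [e]
  unfold mehler
  apply tendsto_lintegral_of_dominated_convergence (fun _ => 1)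
  · intro n; fun_prop
  · intro n
    filter_upwards with g
    by_cases h : (σ n * m + Real.sqrt (1 - σ n ^ 2) * g) ∈ B <;> simp [h]
  · simp
  · filter_upwards with g
    by_cases hmB : m ∈ interior B
    · have h2 : ∀ᶠ n in atTop, σ n * m + Real.sqrt (1 - σ n ^ 2) * g ∈ B :=
        (hlim g).eventually (mem_interior_iff_mem_nhds.mp hmB)
      apply tendsto_const_nhds.congr'
      filter_upwards [h2] with n hn
      rw [indicator_of_mem hn, indicator_of_mem (interior_subset hmB)]
      simp
    · have hmB2 : m ∉ closure B := fun h => hm ⟨h, hmB⟩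
      have h2 : ∀ᶠ n in atTop, σ n * m + Real.sqrt (1 - σ n ^ 2) * g ∈ (closure B)ᶜ :=
        (hlim g).eventually (isClosed_closure.isOpen_compl.mem_nhds hmB2)
      apply tendsto_const_nhds.congr'
      filter_upwards [h2] with n hn
      rw [indicator_of_notMem (fun h => hn (subset_closure h)),
        indicator_of_notMem (fun h => hmB2 (subset_closure h))]

lemma line_tendsto {B : Set ℝ} (hB : MeasurableSet B) (hfr : g1 (frontier B) = 0) {σ : ℕ → ℝ}
    (hσ : Tendsto σ atTop (𝓝 1)) :
    Tendsto (fun n => ∫⁻ m, (B.indicator 1 m - mehler (σ n) (B.indicator 1) m) ∂g1) atTop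
      (𝓝 0) := by
  have hind : Measurable (B.indicator (1 : ℝ → ℝ≥0∞)) := measurable_one.indicator hB
  have e : (0 : ℝ≥0∞) = ∫⁻ _ : ℝ, 0 ∂g1 := by simp
  rw [e]
  apply tendsto_lintegral_of_dominated_convergence (fun _ => 1)
  · intro n; exact hind.sub (measurable_mehler hind)
  · intro n
    filter_upwards with m
    refine tsub_le_self.trans ?_
    by_cases h : m ∈ B <;> simp [h]
  · simp
  · have : ∀ᵐ m ∂g1, m ∉ frontier B := by
      rw [ae_iff]; simpa using hfr
    filter_upwards [this] with m hm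
    have h1 := mehler_tendsto hB hσ hm
    have h2 : Tendsto (fun n => B.indicator (1 : ℝ → ℝ≥0∞) m - mehler (σ n) (B.indicator 1) m)
        atTop (𝓝 (B.indicator 1 m - B.indicator 1 m)) := by
      apply ENNReal.Tendsto.sub tendsto_const_nhds h1
      left
      by_cases h : m ∈ B <;> simp [h]
    simpa using h2

variable {E : Type*} [MeasurableSpace E] {ι : Type*} {π : Measure E}

/-- the sharp payoff -/
noncomputable def sharp (I : E → Set ℝ) (s : ℝ) (e : E) (m : ℝ) : ℝ≥0∞ :=
  (thick s (I e))ᶜ.indicator 1 m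

lemma measurable_mehler_uncurry {f : E → ℝ → ℝ≥0∞} (hf : Measurable (Function.uncurry f))
    (σ : ℝ) : Measurable (Function.uncurry fun e m => mehler σ (f e) m) := by
  unfold mehler
  have : Measurable fun q : (E × ℝ) × ℝ =>
      Function.uncurry f (q.1.1, σ * q.1.2 + Real.sqrt (1 - σ ^ 2) * q.2) := by
    apply hf.comp
    fun_prop
  exact this.lintegral_prod_right'

lemma measurable_sharp {I : E → Set ℝ} {s : ℝ}
    (hIm : MeasurableSet {p : E × ℝ | p.2 ∈ thick s (I p.1)}) :
    Measurable (Function.uncurry (sharp I s)) := by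
  have : Function.uncurry (sharp I s)
      = ({p : E × ℝ | p.2 ∈ thick s (I p.1)}ᶜ).indicator 1 := by
    ext p
    obtain ⟨e, m⟩ := p
    simp only [Function.uncurry, sharp]
    by_cases h : m ∈ thick s (I e)
    · rw [indicator_of_notMem (by simpa using h), indicator_of_notMem (by simpa using h)]
    · rw [indicator_of_mem (by simpa using h), indicator_of_mem (by simpa using h)]
      rfl
  rw [this]
  exact measurable_one.indicator hIm.compl

/-- `L¹`-continuity at correlation one -/
theorem val_sharp_le [IsProbabilityMeasure π] {c : ι → ℝ≥0∞} {W : ι → E → ℝ → ℝ≥0∞}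
    (hW : ∀ i, Measurable (Function.uncurry (W i))) (hW1 : ∀ i e m, W i e m ≤ 1)
    {I : E → Set ℝ} (hI : ∀ e, OrdConnected (I e)) {s : ℝ}
    (hIm : MeasurableSet {p : E × ℝ | p.2 ∈ thick s (I p.1)})
    {σ : ℕ → ℝ} (hσ : Tendsto σ atTop (𝓝 1)) {v : ℝ≥0∞}
    (hv : ∀ n, val π c W (pay I (σ n) s) ≤ v) :
    val π c W (sharp I s) ≤ v := by
  set err : ℕ → ℝ≥0∞ := fun n => ∫⁻ e, ∫⁻ m, (sharp I s e m - pay I (σ n) s e m) ∂g1 ∂π with herr
  have hsh := measurable_sharp hIm
  have hpay : ∀ n, Measurable (Function.uncurry (pay I (σ n) s)) := fun n =>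
    measurable_mehler_uncurry (f := sharp I s) hsh (σ n)
  have hle : ∀ n, val π c W (sharp I s) ≤ v + err n := by
    intro n
    refine iSup_le fun i => ?_
    have h1 : ∫⁻ e, ∫⁻ m, W i e m * sharp I s e m ∂g1 ∂π
        ≤ ∫⁻ e, ∫⁻ m, W i e m * pay I (σ n) s e m ∂g1 ∂π + err n := by
      have hA : Measurable (Function.uncurry fun e m => W i e m * pay I (σ n) s e m) :=
        (hW i).mul (hpay n)
      have hA' : Measurable fun e => ∫⁻ m, W i e m * pay I (σ n) s e m ∂g1 :=
        hA.lintegral_prod_right'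
      simp only [herr]
      rw [← lintegral_add_left hA']
      apply lintegral_mono
      intro e
      have hAe : Measurable fun m => W i e m * pay I (σ n) s e m :=
        hA.comp (measurable_const.prodMk measurable_id)
      simp only
      rw [← lintegral_add_left hAe]
      apply lintegral_mono
      intro m
      calc W i e m * sharp I s e m
          ≤ W i e m * (pay I (σ n) s e m + (sharp I s e m - pay I (σ n) s e m)) := by
            gcongr
            exact le_add_tsub
        _ = W i e m * pay I (σ n) s e m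
            + W i e m * (sharp I s e m - pay I (σ n) s e m) := mul_add _ _ _
        _ ≤ W i e m * pay I (σ n) s e m + 1 * (sharp I s e m - pay I (σ n) s e m) := by
            gcongr
            exact hW1 i e m
        _ = _ := by rw [one_mul]
    calc c i + ∫⁻ e, ∫⁻ m, W i e m * sharp I s e m ∂g1 ∂π
        ≤ c i + (∫⁻ e, ∫⁻ m, W i e m * pay I (σ n) s e m ∂g1 ∂π + err n) := by gcongr
      _ = (c i + ∫⁻ e, ∫⁻ m, W i e m * pay I (σ n) s e m ∂g1 ∂π) + err n := by
          rw [add_assoc]
      _ ≤ v + err n := by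
          gcongr
          exact (le_iSup (fun i => c i + ∫⁻ e, ∫⁻ m, W i e m * pay I (σ n) s e m ∂g1 ∂π) i).trans
            (hv n)
  have hlim : Tendsto err atTop (𝓝 0) := by
    have e0 : (0 : ℝ≥0∞) = ∫⁻ _ : E, 0 ∂π := by simp
    rw [herr, e0]
    apply tendsto_lintegral_of_dominated_convergence (fun _ => 1)
    · intro n
      exact (hsh.sub (hpay n)).lintegral_prod_right'
    · intro n
      filter_upwards with e
      calc ∫⁻ m, (sharp I s e m - pay I (σ n) s e m) ∂g1 ≤ ∫⁻ _, 1 ∂g1 := by
            apply lintegral_mono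
            intro m
            refine tsub_le_self.trans ?_
            unfold sharp
            by_cases h : m ∈ (thick s (I e))ᶜ
            · rw [indicator_of_mem h]; simp
            · rw [indicator_of_notMem h]; simp
        _ = 1 := by simp
    · simp
    · filter_upwards with e
      have hoc := thick_ordConnected (s := s) (hI e)
      have hfr : g1 (frontier (thick s (I e))ᶜ) = 0 := by
        rw [frontier_compl]
        have h1 : volume (frontier (thick s (I e))) = 0 :=
          (hoc.convex).addHaar_frontier volume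
        have h2 : g1 ≪ volume := gaussianReal_absolutelyContinuous 0 one_ne_zero
        exact h2 h1
      exact line_tendsto hoc.measurableSet.compl hfr hσ
  have hlim2 : Tendsto (fun n => v + err n) atTop (𝓝 (v + 0)) := tendsto_const_nhds.add hlim
  rw [add_zero] at hlim2
  exact ge_of_tendsto' hlim2 hle

lemma pay_anti {I : E → Set ℝ} {σ s t : ℝ} (hst : s ≤ t) (e : E) (m : ℝ) :
    pay I σ t e m ≤ pay I σ s e m := by
  apply mehler_mono
  intro x
  exact indicator_le_indicator_of_subset (compl_subset_compl.mpr (thick_mono hst _))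
    (fun _ => zero_le) x

lemma val_mono {c : ι → ℝ≥0∞} {W : ι → E → ℝ → ℝ≥0∞} {f h : E → ℝ → ℝ≥0∞}
    (hfh : ∀ e m, f e m ≤ h e m) : val π c W f ≤ val π c W h := by
  apply iSup_mono
  intro i
  gcongr with e m
  exact hfh e m

/-- **Lemma T.** Correlation path `σ_0 = 0 < σ_1 < …→ 1` with extensions
`0 = s_0 ≤ s_1 ≤ … ≤ s⋆`. -/
theorem lemT [IsProbabilityMeasure π] {c : ι → ℝ≥0∞} {W : ι → E → ℝ → ℝ≥0∞}
    (hW : ∀ i, Measurable (Function.uncurry (W i))) (hW1 : ∀ i e m, W i e m ≤ 1)
    {I : E → Set ℝ} (hI : ∀ e, OrdConnected (I e)) {sT : ℝ}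
    (hIm : MeasurableSet {p : E × ℝ | p.2 ∈ thick sT (I p.1)})
    {σ s K : ℕ → ℝ} (hσ0 : σ 0 = 0) (hσm : StrictMono σ) (hσ1 : ∀ n, σ n < 1)
    (hσ : Tendsto σ atTop (𝓝 1)) (hs0 : s 0 = 0) (hsm : Monotone s) (hsT : ∀ n, s n ≤ sT)
    (hK : ∀ n, K n * (σ (n + 1) - σ n) ≤ s (n + 1) - s n)
    (hatt : ∀ n, LipAttained π c W (K n) (pay I (σ (n + 1)) (s (n + 1)))) :
    val π c W (sharp I sT) ≤ val π c W (pay I 0 0) := by
  have hn0 : ∀ n, 0 ≤ σ n := fun n => hσ0 ▸ hσm.monotone (Nat.zero_le n)
  have hs0' : ∀ n, 0 ≤ s n := fun n => hs0 ▸ hsm (Nat.zero_le n)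
  have hstep : ∀ n, val π c W (pay I (σ n) (s n)) ≤ val π c W (pay I 0 0) := by
    intro n
    induction n with
    | zero => rw [hσ0, hs0]
    | succ n ih =>
        refine le_trans ?_ ih
        exact path_step' (fun i e => (hW i).comp (measurable_const.prodMk measurable_id)) hW1 hI
          (hn0 n) (hσm (Nat.lt_succ_self n)) (hσ1 _) (hs0' n) (hsm (Nat.le_succ n)) (hK n)
          (hatt n)
  apply val_sharp_le hW hW1 hI hIm hσ
  intro n
  exact (val_mono fun e m => pay_anti (hsT n) e m).trans (hstep n)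

end Vale.Agent.P262.H889T
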